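import Crest.Agent.R163.Q3.D.B6.S0
import Crest.Agent.R163.Q3.D.B6.H

set_option autoImplicit false
set_option maxRecDepth 100000
set_option linter.all false
set_option Elab.async false

namespace Crest.Agent.R163.B6

theorem p0_0_0 : Ok2 par f0 Box3.unit C0 :=
  Ok2.run hw hf0 ⟨260,19,19,7,12⟩ 58
    (.chk false 2048)
    (by decide +kernel)

theorem p0_1_0 : Ok2 par f1 Box3.unit C0 :=
  Ok2.run hw hf1 ⟨260,19,19,7,12⟩ 58
    (.chk false 2048)
    (by decide +kernel)

theorem p0_2_0 : Ok2 par f2 Box3.unit (selB2 1 C0 75484076749619367772159) :=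
  Ok2.run hw hf2 ⟨261,19,19,7,12⟩ 58
    (.chk false 2048)
    (by decide +kernel)

theorem p0_2_1 : Ok2 par f2 Box3.unit (selB2 0 C0 75484076749619367772159) :=
  Ok2.run hw hf2 ⟨361,19,19,7,12⟩ 58
    (.split 0 (.chk false 0) (.part 4 (.chk false 0) (.split 1 (.split 1 (.part 4 (.chk false 0) (.split 0 (.chk false 0) (.chk false 0))) (.chk false 0)) (.chk false 0))))
    (by decide +kernel)

theorem p0_3_0 : Ok2 par f3 (((Box3.unit.l 1).l 0).l 1) (selB2 1 (selB2 0 (selB2 0 (selB2 0 C0 37808979862978516844543) 270532462) 1029) 240) :=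
  Ok2.run hw hf3 ⟨341,19,19,7,12⟩ 58
    (.chk false 0)
    (by decide +kernel)

theorem p0_3_1 : Ok2 par f3 (((Box3.unit.l 1).l 0).l 1) (selB2 0 (selB2 0 (selB2 0 (selB2 0 C0 37808979862978516844543) 270532462) 1029) 240) :=
  Ok2.run hw hf3 ⟨473,19,19,7,12⟩ 58
    (.split 0 (.part 9 (.chk false 0) (.split 0 (.part 2 (.chk false 0) (.split 1 (.split 1 (.chk false 0) (.split 0 (.chk false 0) (.split 1 (.chk false 0) (.split 0 (.chk false 0) (.chk false 0))))) (.chk false 0))) (.split 0 (.part 2 (.chk false 0) (.split 1 (.chk false 0) (.chk false 0))) (.chk false 0)))) (.part 11 (.chk false 0) (.split 0 (.chk false 0) (.chk false 0))))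
    (by decide +kernel)

theorem p0_3_2 : Ok2 par f3 (((Box3.unit.l 1).l 0).r 1) (selB2 0 (selB2 0 (selB2 0 C0 37808979862978516844543) 270532462) 1029) :=
  Ok2.run hw hf3 ⟨416,19,19,7,12⟩ 58
    (.part 15 (.chk false 0) (.split 1 (.part 14 (.chk false 0) (.split 0 (.chk false 0) (.chk false 0))) (.part 2 (.chk false 0) (.split 0 (.chk false 0) (.split 1 (.part 1 (.chk false 0) (.split 0 (.chk false 0) (.chk false 0))) (.part 1 (.chk false 0) (.split 0 (.part 1 (.chk false 0) (.split 1 (.chk false 0) (.chk false 0))) (.chk false 0))))))))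
    (by decide +kernel)

theorem p0_3_3 : Ok2 par f3 ((Box3.unit.l 1).l 0) (selB2 1 (selB2 0 (selB2 0 C0 37808979862978516844543) 270532462) 1029) :=
  Ok2.run hw hf3 ⟨319,19,19,7,12⟩ 58
    (.chk false 2048)
    (by decide +kernel)

theorem p0_3_4 : Ok2 par f3 ((Box3.unit.l 1).r 0) (selB2 0 (selB2 0 C0 37808979862978516844543) 270532462) :=
  Ok2.run hw hf3 ⟨408,19,19,7,12⟩ 58
    (.part 58 (.chk false 0) (.split 1 (.chk false 2048) (.part 25 (.chk false 2048) (.split 1 (.chk false 0) (.part 6 (.chk false 0) (.split 0 (.chk false 0) (.part 2 (.chk false 0) (.split 0 (.chk false 0) (.split 1 (.chk false 0) (.chk false 0))))))))))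
    (by decide +kernel)

theorem p0_3_5 : Ok2 par f3 (Box3.unit.l 1) (selB2 1 (selB2 0 C0 37808979862978516844543) 270532462) :=
  Ok2.run hw hf3 ⟨290,19,19,7,12⟩ 58
    (.chk false 2048)
    (by decide +kernel)

theorem p0_3_6 : Ok2 par f3 ((((((Box3.unit.r 1).r 0).r 1).r 0).r 1).l 0) (selB2 0 (selB2 0 (selB2 0 (selB2 0 (selB2 0 C0 37808979862978516844543) 65012627) 98304) 122886) 67) :=
  Ok2.run hw hf3 ⟨399,19,19,7,12⟩ 58
    (.chk false 0)
    (by decide +kernel)

theorem p0_3_7 : Ok2 par f3 ((((((Box3.unit.r 1).r 0).r 1).r 0).r 1).r 0) (selB2 0 (selB2 0 (selB2 0 (selB2 0 (selB2 0 C0 37808979862978516844543) 65012627) 98304) 122886) 67) :=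
  Ok2.run hw hf3 ⟨513,19,19,7,12⟩ 58
    (.part 64 (.chk false 0) (.split 1 (.chk false 0) (.part 112 (.chk false 0) (.split 0 (.chk false 0) (.split 0 (.chk false 0) (.split 1 (.chk false 0) (.part 11 (.chk false 0) (.split 0 (.chk false 0) (.split 1 (.chk false 0) (.chk false 0))))))))))
    (by decide +kernel)

theorem p0_3_8 : Ok2 par f3 (((((Box3.unit.r 1).r 0).r 1).r 0).r 1) (selB2 1 (selB2 0 (selB2 0 (selB2 0 (selB2 0 C0 37808979862978516844543) 65012627) 98304) 122886) 67) :=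
  Ok2.run hw hf3 ⟨382,19,19,7,12⟩ 58
    (.chk false 1024)
    (by decide +kernel)

theorem p0_3_9 : Ok2 par f3 (((((Box3.unit.r 1).r 0).r 1).r 0).l 1) (selB2 0 (selB2 0 (selB2 0 (selB2 0 C0 37808979862978516844543) 65012627) 98304) 122886) :=
  Ok2.run hw hf3 ⟨398,19,19,7,12⟩ 58
    (.part 1983 (.chk false 1024) (.split 1 (.chk false 0) (.chk false 0)))
    (by decide +kernel)

theorem p0_3_10 : Ok2 par f3 ((((Box3.unit.r 1).r 0).r 1).l 0) (selB2 0 (selB2 0 (selB2 0 (selB2 0 C0 37808979862978516844543) 65012627) 98304) 122886) :=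
  Ok2.run hw hf3 ⟨354,19,19,7,12⟩ 58
    (.chk false 1024)
    (by decide +kernel)

theorem p0_3_11 : Ok2 par f3 (((Box3.unit.r 1).r 0).r 1) (selB2 1 (selB2 0 (selB2 0 (selB2 0 C0 37808979862978516844543) 65012627) 98304) 122886) :=
  Ok2.run hw hf3 ⟨341,19,19,7,12⟩ 58
    (.chk false 2048)
    (by decide +kernel)

theorem p0_3_12 : Ok2 par f3 (((Box3.unit.r 1).r 0).l 1) (selB2 0 (selB2 0 (selB2 0 C0 37808979862978516844543) 65012627) 98304) :=
  Ok2.run hw hf3 ⟨452,19,19,7,12⟩ 58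
    (.part 32767 (.chk false 2048) (.split 1 (.chk false 0) (.part 2 (.chk false 0) (.split 0 (.split 1 (.split 0 (.chk false 0) (.chk false 0)) (.split 0 (.split 1 (.split 0 (.split 1 (.chk false 0) (.chk false 0)) (.chk false 0)) (.chk false 0)) (.chk false 0))) (.chk false 0)))))
    (by decide +kernel)

theorem p0_3_13 : Ok2 par f3 ((Box3.unit.r 1).r 0) (selB2 1 (selB2 0 (selB2 0 C0 37808979862978516844543) 65012627) 98304) :=
  Ok2.run hw hf3 ⟨319,19,19,7,12⟩ 58
    (.chk false 0)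
    (by decide +kernel)

theorem p0_3_14 : Ok2 par f3 ((Box3.unit.r 1).l 0) (selB2 0 (selB2 0 C0 37808979862978516844543) 65012627) :=
  Ok2.run hw hf3 ⟨385,19,19,7,12⟩ 58
    (.part 393215 (.chk false 2048) (.split 1 (.split 1 (.chk false 0) (.split 0 (.chk false 0) (.split 1 (.chk false 0) (.chk false 0)))) (.chk false 0)))
    (by decide +kernel)

theorem p0_3_15 : Ok2 par f3 (Box3.unit.r 1) (selB2 1 (selB2 0 C0 37808979862978516844543) 65012627) :=
  Ok2.run hw hf3 ⟨290,19,19,7,12⟩ 58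
    (.chk false 2048)
    (by decide +kernel)

theorem p0_3_16 : Ok2 par f3 Box3.unit (selB2 1 C0 37808979862978516844543) :=
  Ok2.run hw hf3 ⟨262,19,19,7,12⟩ 58
    (.chk false 2048)
    (by decide +kernel)

theorem p0_4_0 : Ok2 par f4 (((Box3.unit.r 0).r 1).l 0) (selB2 0 (selB2 0 (selB2 0 C0 37801918235452987408383) 205) 9) :=
  Ok2.run hw hf4 ⟨426,19,19,7,12⟩ 58
    (.part 579 (.chk false 0) (.split 1 (.chk false 0) (.part 12 (.chk false 0) (.split 0 (.part 28 (.chk false 0) (.split 1 (.chk false 0) (.part 1 (.chk false 0) (.split 1 (.chk false 0) (.split 0 (.chk false 0) (.chk false 0)))))) (.chk false 0)))))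
    (by decide +kernel)

theorem p0_4_1 : Ok2 par f4 (((Box3.unit.r 0).r 1).r 0) (selB2 0 (selB2 0 (selB2 0 C0 37801918235452987408383) 205) 9) :=
  Ok2.run hw hf4 ⟨381,19,19,7,12⟩ 58
    (.part 1534 (.chk false 0) (.split 1 (.chk false 0) (.part 1 (.chk false 0) (.split 0 (.chk false 0) (.chk false 0)))))
    (by decide +kernel)

theorem p0_4_2 : Ok2 par f4 ((Box3.unit.r 0).r 1) (selB2 1 (selB2 0 (selB2 0 C0 37801918235452987408383) 205) 9) :=
  Ok2.run hw hf4 ⟨317,19,19,7,12⟩ 58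
    (.chk false 0)
    (by decide +kernel)

theorem p0_4_3 : Ok2 par f4 ((Box3.unit.r 0).l 1) (selB2 0 (selB2 0 C0 37801918235452987408383) 205) :=
  Ok2.run hw hf4 ⟨317,19,19,7,12⟩ 58
    (.chk false 0)
    (by decide +kernel)

theorem p0_4_4 : Ok2 par f4 (Box3.unit.r 0) (selB2 1 (selB2 0 C0 37801918235452987408383) 205) :=
  Ok2.run hw hf4 ⟨289,19,19,7,12⟩ 58
    (.chk false 0)
    (by decide +kernel)

theorem p0_4_5 : Ok2 par f4 (Box3.unit.l 0) (selB2 0 C0 37801918235452987408383) :=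
  Ok2.run hw hf4 ⟨407,19,19,7,12⟩ 58
    (.part 262128 (.chk false 0) (.split 1 (.chk false 0) (.split 0 (.chk false 0) (.split 1 (.chk false 0) (.part 1 (.chk false 0) (.split 0 (.chk false 0) (.part 6 (.chk false 0) (.split 1 (.chk false 0) (.split 0 (.chk false 0) (.chk false 0))))))))))
    (by decide +kernel)

theorem p0_4_6 : Ok2 par f4 Box3.unit (selB2 1 C0 37801918235452987408383) :=
  Ok2.run hw hf4 ⟨261,19,19,7,12⟩ 58
    (.chk false 2048)
    (by decide +kernel)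

theorem p0_5_0 : Ok2 par f5 ((Box3.unit.r 0).l 1) (selB2 0 (selB2 0 C0 75557859665503781388287) 7) :=
  Ok2.run hw hf5 ⟨421,19,19,7,12⟩ 58
    (.part 260 (.chk false 0) (.split 0 (.chk false 0) (.split 0 (.chk false 0) (.split 1 (.part 120 (.chk false 0) (.split 0 (.chk false 0) (.split 1 (.chk false 0) (.chk false 0)))) (.chk false 0)))))
    (by decide +kernel)

theorem p0_5_1 : Ok2 par f5 ((Box3.unit.r 0).r 1) (selB2 0 (selB2 0 C0 75557859665503781388287) 7) :=
  Ok2.run hw hf5 ⟨402,19,19,7,12⟩ 58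
    (.part 507 (.chk false 0) (.split 0 (.chk false 0) (.split 1 (.chk false 0) (.split 0 (.chk false 0) (.split 1 (.chk false 0) (.chk false 0))))))
    (by decide +kernel)

theorem p0_5_2 : Ok2 par f5 (Box3.unit.r 0) (selB2 1 (selB2 0 C0 75557859665503781388287) 7) :=
  Ok2.run hw hf5 ⟨290,19,19,7,12⟩ 58
    (.chk false 0)
    (by decide +kernel)

theorem p0_5_3 : Ok2 par f5 (Box3.unit.l 0) (selB2 0 C0 75557859665503781388287) :=
  Ok2.run hw hf5 ⟨290,19,19,7,12⟩ 58
    (.chk false 0)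
    (by decide +kernel)

theorem p0_5_4 : Ok2 par f5 Box3.unit (selB2 1 C0 75557859665503781388287) :=
  Ok2.run hw hf5 ⟨262,19,19,7,12⟩ 58
    (.chk false 2048)
    (by decide +kernel)

theorem p0_6_0 : Ok2 par f6 (((Box3.unit.l 0).r 1).l 0) (selB2 0 (selB2 0 (selB2 0 (selB2 0 C0 75555693430770251945471) 63) 163391) 41) :=
  Ok2.run hw hf6 ⟨454,19,19,7,12⟩ 58
    (.part 7 (.chk false 0) (.split 1 (.chk false 0) (.split 0 (.part 11 (.chk false 0) (.split 1 (.chk false 0) (.split 0 (.chk false 0) (.chk false 0)))) (.part 13 (.chk false 0) (.split 1 (.chk false 0) (.split 0 (.split 1 (.chk false 0) (.split 0 (.chk false 0) (.chk false 0))) (.chk false 0)))))))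
    (by decide +kernel)

theorem p0_6_1 : Ok2 par f6 (((Box3.unit.l 0).r 1).r 0) (selB2 0 (selB2 0 (selB2 0 (selB2 0 C0 75555693430770251945471) 63) 163391) 41) :=
  Ok2.run hw hf6 ⟨408,19,19,7,12⟩ 58
    (.part 121 (.chk false 0) (.split 1 (.chk false 0) (.part 1 (.chk false 0) (.split 0 (.chk false 0) (.split 1 (.chk false 0) (.split 0 (.chk false 0) (.chk false 0)))))))
    (by decide +kernel)

theorem p0_6_2 : Ok2 par f6 ((Box3.unit.l 0).r 1) (selB2 1 (selB2 0 (selB2 0 (selB2 0 C0 75555693430770251945471) 63) 163391) 41) :=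
  Ok2.run hw hf6 ⟨318,19,19,7,12⟩ 58
    (.chk false 0)
    (by decide +kernel)

theorem p0_6_3 : Ok2 par f6 ((Box3.unit.l 0).l 1) (selB2 0 (selB2 0 (selB2 0 C0 75555693430770251945471) 63) 163391) :=
  Ok2.run hw hf6 ⟨318,19,19,7,12⟩ 58
    (.chk false 0)
    (by decide +kernel)

theorem p0_6_4 : Ok2 par f6 (Box3.unit.l 0) (selB2 1 (selB2 0 (selB2 0 C0 75555693430770251945471) 63) 163391) :=
  Ok2.run hw hf6 ⟨290,19,19,7,12⟩ 58
    (.chk false 0)
    (by decide +kernel)


end Crest.Agent.R163.B6
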