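import Crest.Agent.R163.Q3.D.B6.S0
import Crest.Agent.R163.Q3.D.B6.H

set_option autoImplicit false
set_option maxRecDepth 100000
set_option linter.all false
set_option Elab.async false

namespace Crest.Agent.R163.B6

theorem p0_6_5 : Ok2 par f6 (((Box3.unit.r 0).r 1).l 0) (selB2 0 (selB2 0 (selB2 0 (selB2 0 C0 75555693430770251945471) 63) 8257572) 15) :=
  Ok2.run hw hf6 ⟨429,19,19,7,12⟩ 58
    (.part 113 (.chk false 0) (.split 1 (.chk false 0) (.part 33 (.chk false 0) (.split 0 (.part 18 (.chk false 0) (.split 1 (.chk false 0) (.split 0 (.chk false 0) (.chk false 0)))) (.part 21 (.chk false 0) (.split 1 (.chk false 0) (.part 2 (.chk false 0) (.split 0 (.split 1 (.chk false 0) (.chk false 0)) (.chk false 0)))))))))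
    (by decide +kernel)

theorem p0_6_6 : Ok2 par f6 (((Box3.unit.r 0).r 1).r 0) (selB2 0 (selB2 0 (selB2 0 (selB2 0 C0 75555693430770251945471) 63) 8257572) 15) :=
  Ok2.run hw hf6 ⟨362,19,19,7,12⟩ 58
    (.part 2039 (.chk false 0) (.split 1 (.chk false 0) (.chk false 0)))
    (by decide +kernel)

theorem p0_6_7 : Ok2 par f6 ((Box3.unit.r 0).r 1) (selB2 1 (selB2 0 (selB2 0 (selB2 0 C0 75555693430770251945471) 63) 8257572) 15) :=
  Ok2.run hw hf6 ⟨318,19,19,7,12⟩ 58
    (.chk false 0)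
    (by decide +kernel)

theorem p0_6_8 : Ok2 par f6 ((Box3.unit.r 0).l 1) (selB2 0 (selB2 0 (selB2 0 C0 75555693430770251945471) 63) 8257572) :=
  Ok2.run hw hf6 ⟨318,19,19,7,12⟩ 58
    (.chk false 0)
    (by decide +kernel)

theorem p0_6_9 : Ok2 par f6 (Box3.unit.r 0) (selB2 1 (selB2 0 (selB2 0 C0 75555693430770251945471) 63) 8257572) :=
  Ok2.run hw hf6 ⟨290,19,19,7,12⟩ 58
    (.chk false 0)
    (by decide +kernel)

theorem p0_6_10 : Ok2 par f6 Box3.unit (selB2 1 (selB2 0 C0 75555693430770251945471) 63) :=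
  Ok2.run hw hf6 ⟨304,25,25,7,13⟩ 58
    (.chk true 0)
    (by decide +kernel)

theorem p0_6_11 : Ok2 par f6 Box3.unit (selB2 1 C0 75555693430770251945471) :=
  Ok2.run hw hf6 ⟨261,19,19,7,12⟩ 58
    (.chk false 1024)
    (by decide +kernel)

theorem p0_7_0 : Ok2 par f7 Box3.unit (selB2 1 (selB2 0 C0 75557863714917861643775) 127) :=
  Ok2.run hw hf7 ⟨315,25,25,7,13⟩ 58
    (.chk true 0)
    (by decide +kernel)

theorem p0_7_1 : Ok2 par f7 Box3.unit (selB2 0 (selB2 0 C0 75557863714917861643775) 127) :=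
  Ok2.run hw hf7 ⟨425,19,19,7,12⟩ 58
    (.split 0 (.chk false 0) (.part 3 (.chk false 0) (.split 1 (.part 2 (.chk false 0) (.split 1 (.split 0 (.chk false 0) (.split 1 (.split 0 (.chk false 0) (.split 1 (.chk false 0) (.chk false 0))) (.chk false 0))) (.chk false 0))) (.chk false 0))))
    (by decide +kernel)

theorem p0_7_2 : Ok2 par f7 Box3.unit (selB2 1 C0 75557863714917861643775) :=
  Ok2.run hw hf7 ⟨266,19,19,7,12⟩ 58
    (.chk false 0)
    (by decide +kernel)

theorem p0_8_0 : Ok2 par f8 Box3.unit (selB2 1 (selB2 1 C0 75557863709407418603007) 1073741823) :=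
  Ok2.run hw hf8 ⟨316,19,19,13,13⟩ 58
    (.chk false 0)
    (by decide +kernel)

theorem p0_8_1 : Ok2 par f8 Box3.unit (selB2 0 (selB2 1 C0 75557863709407418603007) 1073741823) :=
  Ok2.run hw hf8 ⟨316,19,19,13,13⟩ 58
    (.chk false 0)
    (by decide +kernel)

theorem p0_8_2 : Ok2 par f8 ((Box3.unit.l 0).l 1) (selB2 0 (selB2 0 (selB2 0 C0 75557863709407418603007) 127) 4) :=
  Ok2.run hw hf8 ⟨448,19,19,13,13⟩ 58
    (.part 44 (.chk false 0) (.split 0 (.part 3 (.chk false 0) (.split 1 (.chk false 0) (.part 2 (.chk false 0) (.split 0 (.split 1 (.chk false 0) (.chk false 0)) (.chk false 0))))) (.chk false 0)))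
    (by decide +kernel)

theorem p0_8_3 : Ok2 par f8 ((Box3.unit.l 0).r 1) (selB2 0 (selB2 0 (selB2 0 C0 75557863709407418603007) 127) 4) :=
  Ok2.run hw hf8 ⟨373,19,19,13,13⟩ 58
    (.chk false 0)
    (by decide +kernel)

theorem p0_8_4 : Ok2 par f8 (Box3.unit.l 0) (selB2 1 (selB2 0 (selB2 0 C0 75557863709407418603007) 127) 4) :=
  Ok2.run hw hf8 ⟨344,19,19,13,13⟩ 58
    (.chk false 0)
    (by decide +kernel)

theorem p0_8_5 : Ok2 par f8 (Box3.unit.r 0) (selB2 0 (selB2 0 C0 75557863709407418603007) 127) :=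
  Ok2.run hw hf8 ⟨344,19,19,13,13⟩ 58
    (.chk false 0)
    (by decide +kernel)

theorem p0_8_6 : Ok2 par f8 Box3.unit (selB2 1 (selB2 0 C0 75557863709407418603007) 127) :=
  Ok2.run hw hf8 ⟨365,25,25,13,13⟩ 58
    (.chk true 0)
    (by decide +kernel)


end Crest.Agent.R163.B6
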